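import Vale.Agent.P128.Bonnet.Final

/-!
# P128: classification of the global minimisers of the Mumford-Shah functional in the plane
-/

namespace Vale.Agent.Results.P128.GlobalMinimizers

open MeasureTheory Filter
open scoped Topology
open Vale.Agent.P128.Islands Vale.Agent.P128.Bonnet

theorem result : ∀ u G K, IsGlobalMinimizer u G K → IsReduced K →
    ∃ u' : ℂ → ℝ, (u =ᵐ[volume] u') ∧
      (((∀ y ∉ K, ∀ᶠ z in 𝓝 y, u' z = u' y) ∧ (K = ∅ ∨ IsLineOrPropeller K)) ∨
        IsCrackTip u' K) :=
  classificationGoal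

end Vale.Agent.Results.P128.GlobalMinimizers
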